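import Vale.Agent.P084.Finite.Main

/-!
Tingley's problem has an affirmative answer whenever the domain is finite-dimensional.
-/

namespace Vale.Agent.Results.P084.FiniteDim

open Vale.Agent.P084 Metric

section

variable {X Y : Type*} [NormedAddCommGroup X] [NormedSpace ℝ X] [NormedAddCommGroup Y]
  [NormedSpace ℝ Y]

theorem exists_ext (f : sphere (0 : X) 1 ≃ᵢ sphere (0 : Y) 1) :
    ∃ F : X → Y, Ext F ∧ ∀ x : sphere (0 : X) 1, F x = (f x : Y) := by
  classical
  have mem : ∀ x : X, x ≠ 0 → ‖x‖⁻¹ • x ∈ sphere (0 : X) 1 := fun x hx => by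
    rw [mem_sphere_zero_iff_norm, norm_smul, norm_inv, norm_norm,
      inv_mul_cancel₀ (norm_ne_zero_iff.mpr hx)]
  let g : X → Y := fun x => if h : x = 0 then 0 else (f ⟨‖x‖⁻¹ • x, mem x h⟩ : Y)
  have gs : ∀ x : sphere (0 : X) 1, g x = (f x : Y) := fun x => by
    have h1 : ‖(x : X)‖ = 1 := mem_sphere_zero_iff_norm.mp x.2
    have h0 : (x : X) ≠ 0 := by intro h; rw [h, norm_zero] at h1; exact zero_ne_one h1
    simp only [g, dif_neg h0, h1, inv_one, one_smul]
  have gnorm : ∀ x : X, x ≠ 0 → ‖g x‖ = 1 := fun x hx => by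
    simp only [g, dif_neg hx]
    exact mem_sphere_zero_iff_norm.mp (f _).2
  have gscale : ∀ (t : ℝ) (x : X), 0 < t → g (t • x) = g x := fun t x ht => by
    by_cases hx : x = 0
    · simp [hx]
    · have h : t • x ≠ 0 := smul_ne_zero ht.ne' hx
      simp only [g, dif_neg hx, dif_neg h]
      congr 3
      rw [norm_smul, Real.norm_eq_abs, abs_of_pos ht, smul_smul]
      congr 1
      field_simp
  refine ⟨fun x => ‖x‖ • g x, ⟨fun t x ht => ?_, fun x => ?_, fun a b hab => ?_, fun y => ?_⟩,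
    fun x => ?_⟩
  · rcases ht.eq_or_lt with rfl | ht
    · simp
    · rw [gscale t x ht, norm_smul, Real.norm_eq_abs, abs_of_pos ht, smul_smul]
  · by_cases hx : x = 0
    · simp [hx]
    · rw [norm_smul, norm_norm, gnorm x hx, mul_one]
  · by_cases ha : a = 0
    · have hb : b = 0 := by simpa [ha, eq_comm] using hab
      simp [ha, hb]
    · have hap : 0 < ‖a‖ := norm_pos_iff.mpr ha
      have hb : b ≠ 0 := norm_pos_iff.mp (hab ▸ hap)
      have h1 : ‖g a - g b‖ = ‖‖a‖⁻¹ • a - ‖b‖⁻¹ • b‖ := by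
        simp only [g, dif_neg ha, dif_neg hb]
        have := f.isometry.dist_eq ⟨_, mem a ha⟩ ⟨_, mem b hb⟩
        rwa [Subtype.dist_eq, Subtype.dist_eq, dist_eq_norm, dist_eq_norm] at this
      rw [← hab, ← smul_sub, norm_smul, norm_norm, h1, ← hab, ← smul_sub, norm_smul, norm_inv,
        norm_norm]
      field_simp
  · by_cases hy : y = 0
    · exact ⟨0, by simp [hy]⟩
    · have hyp : 0 < ‖y‖ := norm_pos_iff.mpr hy
      have hm : ‖y‖⁻¹ • y ∈ sphere (0 : Y) 1 := by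
        rw [mem_sphere_zero_iff_norm, norm_smul, norm_inv, norm_norm, inv_mul_cancel₀ hyp.ne']
      set x := f.symm ⟨_, hm⟩
      refine ⟨‖y‖ • (x : X), ?_⟩
      rw [gscale _ _ hyp, gs, norm_smul, norm_norm, mem_sphere_zero_iff_norm.mp x.2, mul_one,
        f.apply_symm_apply, smul_smul, mul_inv_cancel₀ hyp.ne', one_smul]
  · simp only [gs, mem_sphere_zero_iff_norm.mp x.2, one_smul]

end

theorem result :
    ∀ (X Y : Type*) [NormedAddCommGroup X] [NormedSpace ℝ X] [FiniteDimensional ℝ X]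
      [NormedAddCommGroup Y] [NormedSpace ℝ Y],
      ∀ f : sphere (0 : X) 1 ≃ᵢ sphere (0 : Y) 1,
        ∃ T : X ≃ₗᵢ[ℝ] Y, ∀ x : sphere (0 : X) 1, T x = (f x : Y) := by
  intro X Y _ _ _ _ _ f
  obtain ⟨F, hF, hFf⟩ := exists_ext f
  have := hF.finiteDimensional
  obtain ⟨L, hL⟩ := Vale.Agent.P084.Finite.exists_linear hF
  let li : X →ₗᵢ[ℝ] Y := ⟨L, fun x => by rw [← hL, hF.norm_eq]⟩
  have hsurj : Function.Surjective li := fun y => by
    obtain ⟨x, hx⟩ := hF.surj y
    exact ⟨x, by rw [← hx, hL]; rfl⟩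
  refine ⟨LinearIsometryEquiv.ofSurjective li hsurj, fun x => ?_⟩
  rw [← hFf, hL]; rfl

end Vale.Agent.Results.P084.FiniteDim
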