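import Vale.Agent.P084.Asym.Moduli
import Vale.Agent.P084.UC.Final
import Vale.Agent.Results.P084.FiniteDim

/-!
Tingley's problem has an affirmative answer, against every target, for uniformly smooth Banach
spaces that are asymptotically uniformly smooth and asymptotically uniformly convex of one power
type. No convexity of the norm is assumed.
-/

namespace Vale.Agent.Results.P084.AsymPower

open Metric Vale.Agent.P084.Asym

theorem result :
    ∀ (X Y : Type*) [NormedAddCommGroup X] [NormedSpace ℝ X] [CompleteSpace X]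
      [NormedAddCommGroup Y] [NormedSpace ℝ Y] (p : ℝ), 1 < p →
      (∀ ε : ℝ, 0 < ε → ∃ t : ℝ, 0 < t ∧ ∀ x h : X, ‖x‖ = 1 → ‖h‖ ≤ t →
        ‖x + h‖ + ‖x - h‖ ≤ 2 + ε * ‖h‖) →
      (∃ C : ℝ, ∀ x : X, ‖x‖ = 1 → ∀ r : ℝ, 0 < r → r ≤ 1 → ∃ F : Finset (StrongDual ℝ X),
        ∀ h : X, (∀ φ ∈ F, φ h = 0) → ‖h‖ ≤ r → ‖x + h‖ ≤ 1 + C * r ^ p) →
      (∀ x : X, ‖x‖ = 1 → ∃ c : ℝ, 0 < c ∧ ∀ r : ℝ, 0 < r → r ≤ 1 →
        ∃ F : Finset (StrongDual ℝ X),
          ∀ h : X, (∀ φ ∈ F, φ h = 0) → ‖h‖ = r → 1 + c * r ^ p ≤ ‖x + h‖) →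
      ∀ f : sphere (0 : X) 1 ≃ᵢ sphere (0 : Y) 1,
        ∃ T : X ≃ₗᵢ[ℝ] Y, ∀ x : sphere (0 : X) 1, T x = (f x : Y) := by
  intro X Y _ _ _ _ _ p hp hS hup hlow f
  by_cases hfin : FiniteDimensional ℝ X
  · exact Vale.Agent.Results.P084.FiniteDim.result X Y f
  obtain ⟨C, hC⟩ := hup
  have := Vale.Agent.P084.UC.complete_target f
  exact linear_of_power hp (le_max_right C 1) hS (gain_of_aus hp hC)
    (rough_of_auc hS hfin hlow) f

end Vale.Agent.Results.P084.AsymPower
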