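import Vale.Agent.P084.TwoLines.BigGlue

/-!
P084: a space with a large symmetric facet has the Mazur-Ulam property; in particular the sup-norm
sum of any normed space and a line does.
-/

namespace Vale.Agent.Results.P084.BigFacet

open Metric Vale.Agent.P084.TwoLines

section

variable {X Y : Type*} [NormedAddCommGroup X] [NormedSpace ℝ X] [NormedAddCommGroup Y]
  [NormedSpace ℝ Y]

theorem extend {φ : X →L[ℝ] ℝ} {p : X} (hP : Facet φ p)
    (f : sphere (0 : X) 1 ≃ᵢ sphere (0 : Y) 1) :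
    ∃ T : X ≃ₗᵢ[ℝ] Y, ∀ x : sphere (0 : X) 1, T x = (f x : Y) := by
  classical
  let F : X → Y := fun x => if h : ‖x‖ = 1 then (f ⟨x, by simpa using h⟩ : Y) else 0
  let G : Y → X := fun y => if h : ‖y‖ = 1 then (f.symm ⟨y, by simpa using h⟩ : X) else 0
  have hF : ∀ x : sphere (0 : X) 1, F x = (f x : Y) := fun x => by
    simp only [F, dif_pos (mem_sphere_zero_iff_norm.mp x.2)]
  have hG : ∀ y : sphere (0 : Y) 1, G y = (f.symm y : X) := fun y => by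
    simp only [G, dif_pos (mem_sphere_zero_iff_norm.mp y.2)]
  have H : SphIso F G := by
    refine ⟨fun x hx => ?_, fun y hy => ?_, fun x hx => ?_, fun y hy => ?_, fun a b ha hb => ?_⟩
    · rw [hF ⟨x, by simpa using hx⟩]; exact mem_sphere_zero_iff_norm.mp (f _).2
    · rw [hG ⟨y, by simpa using hy⟩]; exact mem_sphere_zero_iff_norm.mp (f.symm _).2
    · rw [hF ⟨x, by simpa using hx⟩, hG, f.symm_apply_apply]
    · rw [hG ⟨y, by simpa using hy⟩, hF, f.apply_symm_apply]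
    · rw [hF ⟨a, by simpa using ha⟩, hF ⟨b, by simpa using hb⟩, ← dist_eq_norm,
        ← dist_eq_norm a b]
      exact f.isometry.dist_eq ⟨a, _⟩ ⟨b, _⟩
  obtain ⟨T, hT, hs⟩ := exists_linear_big hP H
  have hn : ∀ x, ‖T x‖ = ‖x‖ := by
    intro x
    rcases eq_or_ne x 0 with rfl | hx
    · simp
    · have h1 : ‖‖x‖⁻¹ • x‖ = 1 := by
        rw [norm_smul, norm_inv, norm_norm, inv_mul_cancel₀ (norm_ne_zero_iff.mpr hx)]
      have h2 := H.normF _ h1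
      rw [hT _ h1, map_smul, norm_smul, norm_inv, norm_norm,
        inv_mul_eq_iff_eq_mul₀ (norm_ne_zero_iff.mpr hx), mul_one] at h2
      exact h2
  let li : X →ₗᵢ[ℝ] Y := ⟨T, hn⟩
  refine ⟨LinearIsometryEquiv.ofSurjective li hs, fun x => ?_⟩
  rw [← hF x, hT x (mem_sphere_zero_iff_norm.mp x.2)]
  rfl

theorem facet_prod {E : Type*} [NormedAddCommGroup E] [NormedSpace ℝ E] :
    Facet (ContinuousLinearMap.snd ℝ E ℝ) ((0 : E), (1 : ℝ)) := by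
  refine ⟨fun v => ?_, rfl, ?_, ⟨1, one_pos, ?_⟩, ?_⟩
  · change |v.2| ≤ ‖v‖
    exact norm_snd_le v
  · rintro ⟨a, t⟩ hw h
    change t = 0 at hw
    subst hw
    simpa [Prod.norm_def] using h
  · rintro ⟨a, t⟩ hw h
    change t = 0 at hw
    subst hw
    simpa [Prod.norm_def] using h
  · rintro ⟨a, t⟩ hx
    have ha : ‖a‖ ≤ 1 := hx ▸ norm_fst_le (a, t)
    have ht : |t| ≤ 1 := hx ▸ norm_snd_le (a, t)
    have h2 : (2 - |t|)⁻¹ * ‖a‖ ≤ 1 := by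
      rw [inv_mul_le_one₀ (by linarith)]; linarith
    simpa [Prod.norm_def, norm_smul, abs_of_pos (show (0 : ℝ) < 2 - |t| by linarith)] using h2

end

theorem result :
    (∀ (X Y : Type*) [NormedAddCommGroup X] [NormedSpace ℝ X] [NormedAddCommGroup Y]
      [NormedSpace ℝ Y] (φ : X →L[ℝ] ℝ) (p : X),
      (∀ v, |φ v| ≤ ‖v‖) → φ p = 1 →
      (∀ w, φ w = 0 → ‖p + w‖ = 1 → ‖p - w‖ = 1) →
      (∃ ρ > 0, ∀ w, φ w = 0 → ‖w‖ ≤ ρ → ‖p + w‖ = 1) →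
      (∀ x, ‖x‖ = 1 → ‖p + (2 - |φ x|)⁻¹ • (x - φ x • p)‖ = 1) →
      ∀ f : sphere (0 : X) 1 ≃ᵢ sphere (0 : Y) 1,
        ∃ T : X ≃ₗᵢ[ℝ] Y, ∀ x : sphere (0 : X) 1, T x = (f x : Y)) ∧
    ∀ (E Y : Type*) [NormedAddCommGroup E] [NormedSpace ℝ E] [NormedAddCommGroup Y]
      [NormedSpace ℝ Y], ∀ f : sphere (0 : E × ℝ) 1 ≃ᵢ sphere (0 : Y) 1,
        ∃ T : (E × ℝ) ≃ₗᵢ[ℝ] Y, ∀ x : sphere (0 : E × ℝ) 1, T x = (f x : Y) :=
  ⟨fun _ _ _ _ _ _ _ _ h1 h2 h3 h4 h5 f => extend ⟨h1, h2, h3, h4, h5⟩ f,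
    fun _ _ _ _ _ _ f => extend facet_prod f⟩

end Vale.Agent.Results.P084.BigFacet
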