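import Vale.Agent.P084.UC.Final
import Vale.Agent.Results.P084.FiniteDim

/-!
Tingley's problem has an affirmative answer for every uniformly convex Banach space, in every
dimension and against every target.
-/

namespace Vale.Agent.Results.P084.UniformConvex

open Metric

theorem result :
    ∀ (X Y : Type*) [NormedAddCommGroup X] [NormedSpace ℝ X] [CompleteSpace X]
      [UniformConvexSpace X] [NormedAddCommGroup Y] [NormedSpace ℝ Y],
      ∀ f : sphere (0 : X) 1 ≃ᵢ sphere (0 : Y) 1,
        ∃ T : X ≃ₗᵢ[ℝ] Y, ∀ x : sphere (0 : X) 1, T x = (f x : Y) := by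
  intro X Y _ _ _ _ _ _ f
  by_cases hfin : FiniteDimensional ℝ X
  · exact Vale.Agent.Results.P084.FiniteDim.result X Y f
  · exact Vale.Agent.P084.UC.mazurUlam_infinite X hfin Y f

end Vale.Agent.Results.P084.UniformConvex
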